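import Vale.Agent.P193.Statement
import Mathlib.GroupTheory.HNNExtension
import Mathlib.GroupTheory.GroupAction.Quotient
import Mathlib.GroupTheory.Finiteness
import Mathlib.Data.Fintype.Perm
import Mathlib.GroupTheory.PresentedGroup

/-!
P193, section 6: from an injective endomorphism `θ` of a finitely presented group with a finitely generated
subgroup `Q` and two double cosets after `θ`, the ascending HNN extension gives a nice envelope.
-/

namespace Vale.P193

variable {H : Type} [Group H] (θ : H →* H) (hθ : Function.Injective θ)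

/-- `⊤ ≅ θ(H)`. -/
noncomputable def ascEquiv : (⊤ : Subgroup H) ≃* θ.range :=
  Subgroup.topEquiv.trans (MonoidHom.ofInjective hθ)

theorem ascEquiv_apply (a : (⊤ : Subgroup H)) : (ascEquiv θ hθ a : H) = θ a := rfl

/-- The ascending HNN extension. -/
abbrev Asc : Type := HNNExtension H ⊤ θ.range (ascEquiv θ hθ)

namespace Asc

open HNNExtension

theorem t_of (h : H) : (t : Asc θ hθ) * of h = of (θ h) * t := by
  have := t_mul_of (φ := ascEquiv θ hθ) ⟨h, Subgroup.mem_top h⟩
  simpa [ascEquiv_apply] using this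

theorem pow_of (a : ℕ) (h : H) : (t : Asc θ hθ) ^ a * of h = of ((θ^[a]) h) * t ^ a := by
  induction a generalizing h with
  | zero => simp
  | succ a ih =>
    rw [pow_succ, mul_assoc, t_of, ← mul_assoc, ih, mul_assoc, ← pow_succ, Function.iterate_succ_apply]

/-- `⟨S, t⟩`. -/
noncomputable def stab (S : Subgroup H) : Subgroup (Asc θ hθ) :=
  Subgroup.closure ((of : H →* Asc θ hθ) '' (S : Set H) ∪ {t})

theorem stab_top : stab θ hθ ⊤ = ⊤ := by
  rw [eq_top_iff]
  intro g hg
  clear hg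
  induction g using HNNExtension.induction_on with
  | of k => exact Subgroup.subset_closure (Or.inl ⟨k, trivial, rfl⟩)
  | t => exact Subgroup.subset_closure (Or.inr rfl)
  | mul x y hx hy => exact Subgroup.mul_mem _ hx hy
  | inv x hx => exact Subgroup.inv_mem _ hx

/-- Elements of the shape `t^(-a) s t^b`, `s ∈ S`. -/
def IsShape (S : Subgroup H) (g : Asc θ hθ) : Prop :=
  ∃ (a b : ℕ) (h : H), h ∈ S ∧ g = (t ^ a)⁻¹ * of h * t ^ b

theorem shape_of_mem_stab {S : Subgroup H} (hS : ∀ h ∈ S, θ h ∈ S) {g : Asc θ hθ} (hg : g ∈ stab θ hθ S) :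
    IsShape θ hθ S g := by
  have hof : ∀ {g}, IsShape θ hθ S g → ∀ k ∈ S, IsShape θ hθ S (g * of k) := by
    rintro g ⟨a, b, h, hh, rfl⟩ k hk
    refine ⟨a, b, h * (θ^[b]) k, S.mul_mem hh ?_, ?_⟩
    · exact Nat.rec (motive := fun b => (θ^[b]) k ∈ S) hk (fun b ih => by rw [Function.iterate_succ_apply']; exact hS _ ih) b
    · rw [map_mul, mul_assoc, pow_of]; group
  refine Subgroup.closure_induction_right (p := fun x _ => IsShape θ hθ S x) ?_ ?_ ?_ hg
  · exact ⟨0, 0, 1, S.one_mem, by simp⟩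
  · rintro x - y (⟨k, hk, rfl⟩ | rfl) hx
    · exact hof hx k hk
    · obtain ⟨a, b, h, hh, rfl⟩ := hx
      exact ⟨a, b + 1, h, hh, by rw [pow_succ]; group⟩
  · rintro x - y (⟨k, hk, rfl⟩ | rfl) hx
    · rw [← map_inv]; exact hof hx _ (S.inv_mem hk)
    · obtain ⟨a, b, h, hh, rfl⟩ := hx
      cases b with
      | zero =>
        refine ⟨a + 1, 0, θ h, hS h hh, ?_⟩
        have := t_of θ hθ h
        rw [pow_zero, mul_one, mul_one, pow_succ', mul_inv_rev, mul_assoc, mul_assoc]
        congr 1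
        rw [eq_inv_mul_iff_mul_eq, ← mul_assoc, this, mul_inv_cancel_right]
      | succ b => exact ⟨a, b, h, hh, by rw [pow_succ]; group⟩

theorem shape_all (g : Asc θ hθ) : IsShape θ hθ ⊤ g :=
  shape_of_mem_stab θ hθ (fun _ _ => Subgroup.mem_top _) (by rw [stab_top]; exact Subgroup.mem_top _)

/-- The exponent sum of `t`. -/
noncomputable def expo : Asc θ hθ →* Multiplicative ℤ :=
  lift 1 (Multiplicative.ofAdd 1) (fun _ => by simp)

theorem expo_shape (a b : ℕ) (h : H) :
    (expo θ hθ ((t ^ a)⁻¹ * of h * t ^ b)).toAdd = (b : ℤ) - a := by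
  simp [expo, map_mul, map_inv, map_pow]; ring

theorem conj_pow (a : ℕ) (h : H) : (t ^ a : Asc θ hθ) * of h * (t ^ a)⁻¹ = of ((θ^[a]) h) := by
  rw [pow_of, mul_inv_cancel_right]

variable {θ hθ}

theorem mem_of_mem_stab {Q : Subgroup H} (hQ : ∀ h, θ h ∈ Q ↔ h ∈ Q) {h : H}
    (hh : (of h : Asc θ hθ) ∈ stab θ hθ Q) : h ∈ Q := by
  obtain ⟨a, b, q, hq, e⟩ := shape_of_mem_stab θ hθ (fun h hh => (hQ h).2 hh) hh
  have he := congrArg (fun x => (expo θ hθ x).toAdd) e
  simp only [expo_shape] at he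
  simp [expo] at he
  have hab : b = a := by omega
  subst hab
  have h2 : of ((θ^[b]) h) = (of q : Asc θ hθ) := by
    rw [← conj_pow, e]; group
  have h3 : (θ^[b]) h ∈ Q := (HNNExtension.of_injective (φ := ascEquiv θ hθ) h2) ▸ hq
  clear e he h2
  induction b with
  | zero => exact h3
  | succ b ih =>
    rw [Function.iterate_succ_apply'] at h3
    exact ih ((hQ _).1 h3)

theorem double_coset {Q : Subgroup H} {x : H} (hdc : ∀ h, h ∉ Q → ∃ a ∈ Q, ∃ b ∈ Q, θ h = a * x * b)
    (g : Asc θ hθ) (hg : g ∉ stab θ hθ Q) :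
    ∃ a ∈ stab θ hθ Q, ∃ b ∈ stab θ hθ Q, g = a * of x * b := by
  have ht : (t : Asc θ hθ) ∈ stab θ hθ Q := Subgroup.subset_closure (Or.inr rfl)
  obtain ⟨a, b, h, -, rfl⟩ := shape_all θ hθ g
  have hh : h ∉ Q := fun hh => hg (Subgroup.mul_mem _ (Subgroup.mul_mem _
    (Subgroup.inv_mem _ (Subgroup.pow_mem _ ht a)) (Subgroup.subset_closure (Or.inl ⟨h, hh, rfl⟩)))
    (Subgroup.pow_mem _ ht b))
  obtain ⟨q1, hq1, q2, hq2, e⟩ := hdc h hh
  refine ⟨(t ^ a)⁻¹ * t⁻¹ * of q1, ?_, of q2 * t * t ^ b, ?_, ?_⟩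
  · exact Subgroup.mul_mem _ (Subgroup.mul_mem _ (Subgroup.inv_mem _ (Subgroup.pow_mem _ ht a))
      (Subgroup.inv_mem _ ht)) (Subgroup.subset_closure (Or.inl ⟨q1, hq1, rfl⟩))
  · exact Subgroup.mul_mem _ (Subgroup.mul_mem _ (Subgroup.subset_closure (Or.inl ⟨q2, hq2, rfl⟩)) ht)
      (Subgroup.pow_mem _ ht b)
  · have h1 : (of h : Asc θ hθ) = t⁻¹ * of (θ h) * t := by rw [mul_assoc, ← t_of, inv_mul_cancel_left]
    rw [h1, e, map_mul, map_mul]; group

theorem fp (hH : Group.IsFinitelyPresented H) : Group.IsFinitelyPresented (Asc θ hθ) := by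
  obtain ⟨n, φ, hφ, s, hs, hker⟩ := hH.out
  let emb : FreeGroup (Fin n) →* FreeGroup (Fin (n + 1)) := FreeGroup.map Fin.castSucc
  choose pre hpre using hφ
  let τ : FreeGroup (Fin (n + 1)) := FreeGroup.of (Fin.last n)
  let R : Set (FreeGroup (Fin (n + 1))) :=
    emb '' s ∪ Set.range fun i : Fin n =>
      τ * emb (FreeGroup.of i) * τ⁻¹ * (emb (pre (θ (φ (FreeGroup.of i)))))⁻¹
  let π : FreeGroup (Fin (n + 1)) →* Asc θ hθ :=
    FreeGroup.lift (Fin.lastCases t fun i => of (φ (FreeGroup.of i)))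
  have hπe : ∀ w, π (emb w) = of (φ w) := by
    intro w
    change (π.comp emb) w = ((of : H →* Asc θ hθ).comp φ) w
    congr 1
    refine FreeGroup.ext_hom _ _ fun i => ?_
    simp [π, emb]
  have hπt : π τ = t := by simp [π, τ]
  let N := Subgroup.normalClosure R
  have hN : N ≤ π.ker := by
    refine Subgroup.normalClosure_le_normal ?_
    rintro r (⟨w, hw, rfl⟩ | ⟨i, rfl⟩)
    · have : φ w = 1 := (hker ▸ Subgroup.subset_normalClosure hw : w ∈ φ.ker)
      simp [MonoidHom.mem_ker, hπe, this]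
    · simp [MonoidHom.mem_ker, hπe, hπt, hpre, t_of]
  have hk : φ.ker ≤ ((QuotientGroup.mk' N).comp emb).ker := by
    rw [← hker]
    refine Subgroup.normalClosure_le_normal ?_
    intro w hw
    exact (QuotientGroup.eq_one_iff _).2 (Subgroup.subset_normalClosure (Or.inl ⟨w, hw, rfl⟩))
  let fH : H →* FreeGroup (Fin (n + 1)) ⧸ N :=
    φ.liftOfRightInverse pre hpre ⟨(QuotientGroup.mk' N).comp emb, hk⟩
  have hfH : ∀ w, fH (φ w) = QuotientGroup.mk' N (emb w) := fun w =>
    MonoidHom.liftOfRightInverse_comp_apply φ pre hpre ⟨(QuotientGroup.mk' N).comp emb, hk⟩ w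
  have hrel : ∀ h : H, QuotientGroup.mk' N τ * fH h = fH (θ h) * QuotientGroup.mk' N τ := by
    intro h
    obtain ⟨w, rfl⟩ : ∃ w, φ w = h := ⟨pre h, hpre h⟩
    suffices e : (MulAut.conj (QuotientGroup.mk' N τ)).toMonoidHom.comp (fH.comp φ) = (fH.comp θ).comp φ by
      have := congrArg (fun f => f w) e
      simp only [MonoidHom.comp_apply, MulEquiv.coe_toMonoidHom, MulAut.conj_apply] at this
      exact mul_inv_eq_iff_eq_mul.1 this
    refine FreeGroup.ext_hom _ _ fun i => ?_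
    simp only [MonoidHom.comp_apply, MulEquiv.coe_toMonoidHom, MulAut.conj_apply, hfH]
    rw [← hpre (θ (φ (FreeGroup.of i))), hfH, ← map_inv, ← map_mul, ← map_mul]
    refine (QuotientGroup.eq_iff_div_mem).2 ?_
    rw [div_eq_mul_inv]
    exact Subgroup.subset_normalClosure (Or.inr ⟨i, rfl⟩)
  let back : Asc θ hθ →* FreeGroup (Fin (n + 1)) ⧸ N :=
    lift fH (QuotientGroup.mk' N τ) (fun a => by
      simpa [ascEquiv_apply] using hrel a)
  have hback : back.comp π = QuotientGroup.mk' N := by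
    refine FreeGroup.ext_hom _ _ fun i => ?_
    induction i using Fin.lastCases with
    | last => simp [back, π, τ]
    | cast i =>
      simp only [MonoidHom.comp_apply, π, FreeGroup.lift_apply_of, Fin.lastCases_castSucc, back, lift_of, hfH]
      simp [emb]
  refine ⟨n + 1, π, ?_, R, (hs.image _).union (Set.finite_range _), ?_⟩
  · rw [← MonoidHom.range_eq_top, eq_top_iff]
    intro g hg
    clear hg
    induction g using HNNExtension.induction_on with
    | of k => exact ⟨emb (pre k), by rw [hπe, hpre]⟩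
    | t => exact ⟨τ, hπt⟩
    | mul x y hx hy => exact Subgroup.mul_mem _ hx hy
    | inv x hx => exact Subgroup.inv_mem _ hx
  · refine le_antisymm hN fun w hw => ?_
    rw [← QuotientGroup.eq_one_iff, ← QuotientGroup.mk'_apply, ← hback, MonoidHom.comp_apply,
      MonoidHom.mem_ker.1 hw, map_one]

end Asc

end Vale.P193
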