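import Vale.Agent.P193.Lam.Ascending

/-! P193, section 6: the faithful quotient of the ascending extension is a nice envelope. -/

namespace Vale.P193

open HNNExtension MulAction

/-- Everything Thm A asks from the fixed point. -/
structure Core (G : Type) [Group G] where
  H : Type
  [grp : Group H]
  fp : Group.IsFinitelyPresented H
  inf : Infinite H
  θ : H →* H
  inj : Function.Injective θ
  Q : Subgroup H
  fg : Q.FG
  hQ : ∀ h, θ h ∈ Q ↔ h ∈ Q
  x : H
  dc : ∀ h, h ∉ Q → ∃ a ∈ Q, ∃ b ∈ Q, θ h = a * x * b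
  core : ∀ q ∈ Q, q ≠ 1 → x * θ q * x⁻¹ ∉ Q
  i : G →* H
  i_inj : Function.Injective i

attribute [instance] Core.grp

theorem fg_of_expo {A : Type} [Group A] (f : A →* Multiplicative ℤ) (N : Subgroup A) [N.Normal]
    (h : ∀ g ∈ N, f g = 1 → g = 1) : N.IsFinitelyNormallyGenerated := by
  obtain ⟨z, hz⟩ := IsCyclic.exists_generator (α := N.map f)
  obtain ⟨g0, hg0, e0⟩ := z.2
  refine ⟨{g0}, Set.finite_singleton _, ?_⟩
  refine le_antisymm (Subgroup.normalClosure_le_normal (by simpa using hg0)) fun g hg => ?_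
  obtain ⟨k, hk⟩ := Subgroup.mem_zpowers_iff.1 (hz ⟨_, Subgroup.mem_map_of_mem _ hg⟩)
  have : g * (g0 ^ k)⁻¹ = 1 := by
    refine h _ (N.mul_mem hg (N.inv_mem (N.zpow_mem hg0 k))) ?_
    have := congrArg Subtype.val hk
    rw [SubgroupClass.coe_zpow] at this
    rw [map_mul, map_inv, map_zpow, e0, this]
    exact mul_inv_cancel _
  rw [mul_inv_eq_one] at this
  rw [this]
  exact Subgroup.zpow_mem _ (Subgroup.subset_normalClosure (Set.mem_singleton g0)) k

namespace Core

variable {G : Type} [Group G] (C : Core G)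

/-- The ascending extension. -/
abbrev Big : Type := Asc C.θ C.inj

/-- The point stabiliser. -/
noncomputable abbrev St : Subgroup C.Big := Asc.stab C.θ C.inj C.Q

/-- The point set. -/
abbrev Pt : Type := C.Big ⧸ C.St

/-- The action. -/
noncomputable def act : C.Big →* Equiv.Perm C.Pt := MulAction.toPermHom C.Big C.Pt

theorem act_ker_le : C.act.ker ≤ C.St := by
  rw [act, ← Subgroup.normalCore_eq_ker]; exact C.St.normalCore_le

theorem ker_of {h : C.H} (hh : (of h : C.Big) ∈ C.act.ker) : h = 1 := by
  by_contra hne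
  have hq : h ∈ C.Q := Asc.mem_of_mem_stab C.hQ (C.act_ker_le hh)
  refine C.core h hq hne (Asc.mem_of_mem_stab C.hQ (C.act_ker_le ?_))
  have e : (of (C.θ h) : C.Big) = t * of h * t⁻¹ := by
    rw [Asc.t_of, mul_inv_cancel_right]
  rw [map_mul, map_mul, map_inv, e]
  exact C.act.normal_ker.conj_mem _ (C.act.normal_ker.conj_mem _ hh _) _

theorem ker_expo {g : C.Big} (hg : g ∈ C.act.ker) (he : Asc.expo C.θ C.inj g = 1) : g = 1 := by
  obtain ⟨a, b, h, -, rfl⟩ := Asc.shape_all C.θ C.inj g
  have := congrArg Multiplicative.toAdd he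
  rw [Asc.expo_shape, toAdd_one] at this
  have hab : b = a := by omega
  subst hab
  have h1 : (of h : C.Big) ∈ C.act.ker := by
    have := C.act.normal_ker.conj_mem _ hg (t ^ b)
    simpa [mul_assoc] using this
  simp [C.ker_of h1]

theorem ker_fg : C.act.ker.IsFinitelyNormallyGenerated :=
  fg_of_expo (Asc.expo C.θ C.inj) C.act.ker fun _ hg he => C.ker_expo hg he

theorem exists_move {a b : C.Big} (hab : (a : C.Pt) ≠ b) :
    ∃ g : C.Big, g • ((1 : C.Big) : C.Pt) = a ∧ g • ((of C.x : C.Big) : C.Pt) = b := by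
  obtain ⟨s1, hs1, s2, hs2, e⟩ :=
    Asc.double_coset C.dc (a⁻¹ * b) (fun h => hab (QuotientGroup.eq.2 h))
  refine ⟨a * s1, ?_, ?_⟩
  · rw [MulAction.Quotient.smul_mk, smul_eq_mul, mul_one]
    exact QuotientGroup.eq.2 (by simpa [mul_assoc] using C.St.inv_mem hs1)
  · rw [MulAction.Quotient.smul_mk, smul_eq_mul]
    refine QuotientGroup.eq.2 ?_
    have : (a * s1 * of C.x)⁻¹ * b = s2 := by
      calc (a * s1 * of C.x)⁻¹ * b = (s1 * of C.x)⁻¹ * (a⁻¹ * b) := by group
        _ = s2 := by rw [e]; group
    rw [this]; exact hs2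

theorem stab_fg : C.St.FG := by
  classical
  obtain ⟨F, hF⟩ := C.fg
  refine ⟨F.image (of : C.H →* C.Big) ∪ {t}, ?_⟩
  rw [Finset.coe_union, Finset.coe_image, Finset.coe_singleton]
  apply le_antisymm
  · rw [Subgroup.closure_le]
    rintro g (⟨h, hh, rfl⟩ | rfl)
    · exact Subgroup.subset_closure (Or.inl ⟨h, hF ▸ Subgroup.subset_closure hh, rfl⟩)
    · exact Subgroup.subset_closure (Or.inr rfl)
  · refine (Subgroup.closure_le _).2 ?_
    rintro g (⟨h, hh, rfl⟩ | rfl)
    · have : h ∈ Subgroup.closure (F : Set C.H) := by rw [hF]; exact hh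
      have h2 := Subgroup.mem_map_of_mem (of : C.H →* C.Big) this
      rw [MonoidHom.map_closure] at h2
      exact Subgroup.closure_mono Set.subset_union_left h2
    · exact Subgroup.subset_closure (Or.inr rfl)

theorem range_fp : Group.IsFinitelyPresented C.act.range := by
  haveI := Asc.fp (θ := C.θ) (hθ := C.inj) C.fp
  exact Group.IsFinitelyPresented.of_surjective C.act.rangeRestrict C.act.rangeRestrict_surjective
    (by rw [MonoidHom.ker_rangeRestrict]; exact C.ker_fg)

theorem of_act_injective : Function.Injective fun h => C.act.rangeRestrict (of h) := by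
  intro a b hab
  have : (of (a * b⁻¹) : C.Big) ∈ C.act.ker := by
    rw [MonoidHom.mem_ker, map_mul, map_mul, map_inv, map_inv]
    have := congrArg Subtype.val hab
    simp only [MonoidHom.coe_rangeRestrict] at this
    rw [this, mul_inv_cancel]
  simpa [mul_inv_eq_one] using C.ker_of this

theorem smul_range (g : C.Big) (s : C.Pt) : C.act.rangeRestrict g • s = g • s := rfl

theorem stabilizer_fg (s : C.Pt) : (MulAction.stabilizer C.act.range s).FG := by
  induction s using QuotientGroup.induction_on with | H a => ?_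
  have e : MulAction.stabilizer C.act.range (a : C.Pt) =
      C.St.map (C.act.rangeRestrict.comp (MulAut.conj a).toMonoidHom) := by
    ext l
    obtain ⟨g, rfl⟩ := C.act.rangeRestrict_surjective l
    rw [MulAction.mem_stabilizer_iff, C.smul_range, MulAction.Quotient.smul_mk, QuotientGroup.eq,
      Subgroup.mem_map]
    constructor
    · intro hg
      refine ⟨a⁻¹ * g * a, by simpa [mul_assoc] using C.St.inv_mem hg, ?_⟩
      simp [mul_assoc]
    · rintro ⟨u, hu, he⟩
      have hk : (a * u * a⁻¹)⁻¹ * g ∈ C.act.ker := by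
        rw [MonoidHom.mem_ker, map_mul, map_inv, inv_mul_eq_one]
        simpa using congrArg Subtype.val he
      have hk2 := C.act_ker_le (C.act.normal_ker.conj_mem _ hk a⁻¹)
      have : a⁻¹ * g * a ∈ C.St := by
        have := C.St.mul_mem hu hk2
        simpa [mul_assoc] using this
      simpa [mul_assoc] using C.St.inv_mem this
  rw [e]
  obtain ⟨F, hF⟩ := C.stab_fg
  classical
  exact ⟨F.image _, by rw [Finset.coe_image, ← MonoidHom.map_closure, hF]⟩

theorem pt_infinite : Infinite C.Pt := by
  by_contra hfin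
  rw [not_infinite_iff_finite] at hfin
  haveI := C.inf
  haveI : Infinite C.act.range := Infinite.of_injective _ C.of_act_injective
  exact not_finite C.act.range

theorem pt_countable : Countable C.Pt := by
  obtain ⟨n, φ, hφ, -⟩ := (Asc.fp (θ := C.θ) (hθ := C.inj) C.fp).out
  haveI : Countable (FreeGroup (Fin n)) :=
    Quot.mk_surjective.countable (α := List (Fin n × Bool))
  haveI : Countable C.Big := hφ.countable
  exact Quotient.mk''_surjective.countable

theorem nice (C : Core G) : NiceEnvelope G := by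
  refine ⟨C.act.range, inferInstance, C.Pt, inferInstance, C.pt_countable, C.range_fp, inferInstance,
    C.pt_infinite, ?_, C.stabilizer_fg, C.act.rangeRestrict.comp ((of).comp C.i),
    C.of_act_injective.comp C.i_inj⟩
  intro a b a' b' h h'
  induction a using QuotientGroup.induction_on with | H a => ?_
  induction b using QuotientGroup.induction_on with | H b => ?_
  induction a' using QuotientGroup.induction_on with | H a' => ?_
  induction b' using QuotientGroup.induction_on with | H b' => ?_
  obtain ⟨g, hg1, hg2⟩ := C.exists_move h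
  obtain ⟨g', hg1', hg2'⟩ := C.exists_move h'
  refine ⟨C.act.rangeRestrict (g' * g⁻¹), ?_, ?_⟩
  · rw [C.smul_range, mul_smul, ← hg1, inv_smul_smul, hg1']
  · rw [C.smul_range, mul_smul, ← hg2, inv_smul_smul, hg2']

end Core

end Vale.P193
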